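import Vale.Agent.P202.InfGen
import Vale.Agent.P202.FinMain2

namespace Vale.Agent.P202

open IsLocalRing Filter Topology

universe u v

theorem core3' {R : Type u} {S : Type v} [CommRing R] [IsLocalRing R] [IsNoetherianRing R]
    [CommRing S] [IsLocalRing S] [IsNoetherianRing S] [Algebra R S]
    [IsLocalHom (algebraMap R S)] [Module.Flat R S]
    (hfib : ∃ K, maximalIdeal S ^ K ≤ (maximalIdeal R).map (algebraMap R S))
    (δ : ℕ) (hdR : ringKrullDim R = (δ + 3 : ℕ)) (hdS : ringKrullDim S = (δ + 3 : ℕ))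
    (r : ℕ) (hr : 2 ≤ r) (x : Fin r → S) (hxn : ∀ j, x j ∈ maximalIdeal S)
    (hx : maximalIdeal S ≤
      (maximalIdeal R).map (algebraMap R S) ⊔ Ideal.span (Set.range x)) :
    ∃ eR eS D : ℕ, eR ≤ (min r (δ + 3) - 2).factorial * eS ∧
      (∀ N, cl (maximalIdeal R ^ N) ≤
        ((eR * (N + (δ + 2)).choose (δ + 3) + D * N ^ (δ + 2) : ℕ) : ℕ∞)) ∧
      (∀ N : ℕ, ((eS * N.choose (δ + 3) : ℕ) : ℕ∞) ≤
        cl (maximalIdeal S ^ N) + ((D * N ^ (δ + 2) : ℕ) : ℕ∞)) := by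
  obtain ⟨R', S', _, _, _, _, _, _, _, _, _, θ, i4, hclR, hclS, j4, j6⟩ := inf_pair R S
  have j8 : Infinite (ResidueField S') :=
    Infinite.of_injective (ResidueField.map (algebraMap R' S')) (RingHom.injective _)
  have hbd : ∀ {T : Type _} [CommRing T] [IsLocalRing T] [IsNoetherianRing T],
      ringKrullDim T = (δ + 3 : ℕ) → ∃ A : ℕ, ∀ N, cl (maximalIdeal T ^ N) ≤
        ((A * (N + 1) ^ (δ + 3) : ℕ) : ℕ∞) := by
    intro T _ _ _ hT
    obtain ⟨A, hA⟩ := exists_bound (δ + 3) hT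
    refine ⟨A, fun N => (hA N).trans ?_⟩
    have : A * N ^ (δ + 3) ≤ A * (N + 1) ^ (δ + 3) := by gcongr; omega
    exact_mod_cast this
  obtain ⟨AR, hAR⟩ := hbd hdR
  obtain ⟨AS, hAS⟩ : ∃ A : ℕ, ∀ N, cl (maximalIdeal S ^ N) ≤
        ((A * (N + 1) ^ (δ + 3) : ℕ) : ℕ∞) := by
    obtain ⟨A, hA⟩ := exists_bound (δ + 3) hdS
    refine ⟨A, fun N => (hA N).trans ?_⟩
    have : A * N ^ (δ + 3) ≤ A * (N + 1) ^ (δ + 3) := by gcongr; omega
    exact_mod_cast this
  obtain ⟨X, hX, hs, hc⟩ := exists_seq ((maximalIdeal R').map (algebraMap R' S')) (δ + 3)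
  obtain ⟨eR, eS, D, h1, h2, h3⟩ := numeric2' (R := R') (S := S') i4 (by
    obtain ⟨K, hK⟩ := hfib
    refine ⟨K, ?_⟩
    rw [← j4, ← Ideal.map_pow, ← j6]
    exact Ideal.map_mono hK) δ AR (fun N => by rw [hclR]; exact hAR N) X hX hs AS
    (fun N => by rw [hclS]; exact hAS N) r hr (fun hrr => by
      refine gens_of_seq _ X (δ + 3) hX hc r (fun j => θ (x j)) (fun j => ?_) ?_ (by omega)
      · rw [← j4]
        exact Ideal.mem_map_of_mem _ (hxn j)
      · rw [← j4, ← j6]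
        refine (Ideal.map_mono hx).trans ?_
        rw [Ideal.map_sup, Ideal.map_span, ← Set.range_comp]
        exact le_rfl)
  refine ⟨eR, eS, D, h1, fun N => ?_, fun N => ?_⟩
  · rw [← hclR]; exact h2 N
  · rw [← hclS]; exact h3 N

theorem main_inequality_artin {R : Type u} {S : Type v}
    [CommRing R] [IsLocalRing R] [IsNoetherianRing R]
    [CommRing S] [IsLocalRing S] [IsNoetherianRing S] [Algebra R S] [Module.Flat R S]
    [IsLocalHom (algebraMap R S)]
    (hart : IsArtinianRing (S ⧸ (maximalIdeal R).map (algebraMap R S)))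
    (d : ℕ) (hd : ringKrullDim R = d) (r : ℕ) (x : Fin r → S)
    (hx : maximalIdeal S = (maximalIdeal R).map (algebraMap R S) ⊔ Ideal.span (Set.range x)) :
    ∃ eR eS : ℝ, HasMult R eR ∧ HasMult S eS ∧ 0 ≤ eS ∧
      eR ≤ ((min r d - 2).factorial : ℝ) * eS := by
  rcases Nat.lt_or_ge (min r d) 3 with h3 | h3
  · obtain ⟨eR, eS, hR, hS, h0, h⟩ := main_inequality hart d hd r x hx
    refine ⟨eR, eS, hR, hS, h0, ?_⟩
    have h4 : (min r d - 1).factorial = (min r d - 2).factorial := by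
      have h5 : min r d = 0 ∨ min r d = 1 ∨ min r d = 2 := by omega
      rcases h5 with h5 | h5 | h5 <;> simp [h5]
    rw [← h4]
    exact h
  · obtain ⟨δ, rfl⟩ : ∃ δ, d = δ + 3 := ⟨d - 3, by omega⟩
    have hfib := exists_pow_le_fibre (R := R) (S := S) hart
    have hdS : ringKrullDim S = (δ + 3 : ℕ) := by rw [dim_eq (R := R) (S := S) hart, hd]
    obtain ⟨eR, -, hmR, htR⟩ := hasMult_succ (A := R) (δ + 2) hd
    obtain ⟨eS, heS0, hmS, htS⟩ := hasMult_succ (A := S) (δ + 2) hdS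
    refine ⟨eR, eS, hmR, hmS, heS0, ?_⟩
    obtain ⟨a, c, D, h1, h2, h4⟩ := core3' (R := R) (S := S) hfib δ hd hdS r (by omega) x
      (fun j => by
        rw [hx]
        exact Ideal.mem_sup_right (Ideal.subset_span ⟨j, rfl⟩)) (le_of_eq hx)
    have h5 := limit_le (len R) eR a D (δ + 2) htR (fun N => by
      have := h2 N
      rw [← coe_len] at this
      exact_mod_cast this)
    have h6 := le_limit (len S) eS c D (δ + 2) htS (fun N => by
      have := h4 N
      rw [← coe_len] at this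
      exact_mod_cast this)
    have h7 : (a : ℝ) ≤ ((min r (δ + 3) - 2).factorial : ℝ) * c := by exact_mod_cast h1
    refine h5.trans (h7.trans ?_)
    gcongr

end Vale.Agent.P202
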